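import Vale.Agent.P329.Defs
import Vale.Agent.P329Z.Final

namespace Vale.Agent.Results.P329.AllHeightThree

open Vale.Agent.P329

/-- Every regular language over every finite alphabet is denoted by a generalized regular
expression over the same alphabet of star height at most three. -/
theorem result : ∀ (α : Type) [Finite α] (L : Language α), L.IsRegular →
    ∃ e : GRE α, e.height ≤ 3 ∧ e.lang = L :=
  fun _ _ L hL => Vale.Agent.P329Z.height_regular L hL

end Vale.Agent.Results.P329.AllHeightThree
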